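import Mathlib

/-!
# R114 / HJ / Surj (helper935): surjectivity from approximate preimages and from dual bounds
-/

set_option autoImplicit false

namespace Crest.Agent.R114.HJ

open Filter Topology Metric

section
variable {𝕜 : Type*} [RCLike 𝕜]
variable {X : Type*} [NormedAddCommGroup X] [NormedSpace 𝕜 X]
variable {Y : Type*} [NormedAddCommGroup Y] [NormedSpace 𝕜 Y]

/-- approximate preimages with controlled norm give surjectivity -/
theorem surjective_of_approx [CompleteSpace X] (T : X →L[𝕜] Y) (C : ℝ) (hC : 0 ≤ C)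
    (h : ∀ y, ∃ x, ‖x‖ ≤ C * ‖y‖ ∧ ‖T x - y‖ ≤ 1 / 2 * ‖y‖) : Function.Surjective T := by
  choose g hg hg' using h
  intro y
  let r : ℕ → Y := fun n => (fun z => z - T (g z))^[n] y
  have hr0 : r 0 = y := rfl
  have hr : ∀ n, r (n + 1) = r n - T (g (r n)) := fun n => by
    simp only [r, Function.iterate_succ_apply']
  have hrn : ∀ n, ‖r n‖ ≤ (1 / 2) ^ n * ‖y‖ := by
    intro n
    induction n with
    | zero => simp [hr0]
    | succ n ih =>
      rw [hr, ← norm_neg, neg_sub]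
      calc ‖T (g (r n)) - r n‖ ≤ 1 / 2 * ‖r n‖ := hg' _
        _ ≤ 1 / 2 * ((1 / 2) ^ n * ‖y‖) := by gcongr
        _ = (1 / 2) ^ (n + 1) * ‖y‖ := by ring
  have hsum : Summable fun n => g (r n) := by
    refine Summable.of_norm_bounded (g := fun n => (C * ‖y‖) * (1 / 2) ^ n) ?_ ?_
    · exact (summable_geometric_of_lt_one (by norm_num) (by norm_num)).mul_left _
    · intro n
      calc ‖g (r n)‖ ≤ C * ‖r n‖ := hg _
        _ ≤ C * ((1 / 2) ^ n * ‖y‖) := by gcongr; exact hrn n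
        _ = (C * ‖y‖) * (1 / 2) ^ n := by ring
  refine ⟨∑' n, g (r n), ?_⟩
  have h1 : Tendsto (fun n => T (∑ i ∈ Finset.range n, g (r i))) atTop
      (𝓝 (T (∑' n, g (r n)))) := (T.continuous.tendsto _).comp hsum.hasSum.tendsto_sum_nat
  have h2 : ∀ n, T (∑ i ∈ Finset.range n, g (r i)) = y - r n := by
    intro n
    induction n with
    | zero => simp [hr0]
    | succ n ih => rw [Finset.sum_range_succ, map_add, ih, hr]; abel
  have h3 : Tendsto r atTop (𝓝 0) := by
    rw [tendsto_zero_iff_norm_tendsto_zero]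
    refine squeeze_zero (fun _ => norm_nonneg _) hrn ?_
    have := (tendsto_pow_atTop_nhds_zero_of_lt_one (by norm_num : (0 : ℝ) ≤ 1 / 2)
      (by norm_num)).mul_const ‖y‖
    simpa using this
  have h4 : Tendsto (fun n => T (∑ i ∈ Finset.range n, g (r i))) atTop (𝓝 y) := by
    simp only [h2]
    have := (tendsto_const_nhds (x := y)).sub h3
    simpa using this
  exact tendsto_nhds_unique h1 h4

/-- If the adjoint is bounded below then `T` is onto. -/
theorem surjective_of_dual_bound [CompleteSpace X] (T : X →L[𝕜] Y) {c : ℝ} (hc : 0 < c)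
    (h : ∀ ψ : Y →L[𝕜] 𝕜, c * ‖ψ‖ ≤ ‖ψ.comp T‖) : Function.Surjective T := by
  let _ : NormedSpace ℝ X := NormedSpace.restrictScalars ℝ 𝕜 X
  let _ : NormedSpace ℝ Y := NormedSpace.restrictScalars ℝ 𝕜 Y
  have : IsScalarTower ℝ 𝕜 Y := RestrictScalars.isScalarTower ℝ 𝕜 Y
  have : IsScalarTower ℝ 𝕜 X := RestrictScalars.isScalarTower ℝ 𝕜 X
  -- the closure of the image of the unit ball contains the ball of radius `c`
  have key : ∀ y : Y, ‖y‖ < c → y ∈ closure (T '' closedBall 0 1) := by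
    intro y hy
    by_contra hmem
    have hconv : Convex ℝ (closure (T '' closedBall (0 : X) 1)) := by
      refine Convex.closure ?_
      exact (convex_closedBall (0 : X) 1).linear_image ((T : X →ₗ[𝕜] Y).restrictScalars ℝ)
    obtain ⟨ψ, u, hu1, hu2⟩ := RCLike.geometric_hahn_banach_closed_point (𝕜 := 𝕜) hconv
      isClosed_closure hmem
    have hu0 : 0 < u := by
      have := hu1 0 (subset_closure ⟨0, by simp, map_zero T⟩)
      simpa using this
    have hψ : ‖ψ.comp T‖ ≤ u := by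
      refine ContinuousLinearMap.opNorm_le_of_unit_norm (𝕜 := 𝕜) hu0.le fun x hx => ?_
      obtain ⟨l, hl, hlx⟩ := RCLike.exists_norm_eq_mul_self (ψ (T x))
      have h1 : T (l • x) ∈ closure (T '' closedBall (0 : X) 1) := by
        refine subset_closure ⟨l • x, ?_, rfl⟩
        rw [mem_closedBall_zero_iff, norm_smul, hl, hx, one_mul]
      have h2 := hu1 _ h1
      rw [map_smul, map_smul, smul_eq_mul, ← hlx, RCLike.ofReal_re] at h2
      exact h2.le
    have h1 := h ψ
    have h2 : u < ‖ψ‖ * ‖y‖ := lt_of_lt_of_le hu2 ((RCLike.re_le_norm _).trans (ψ.le_opNorm y))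
    have h3 : ‖ψ‖ * ‖y‖ ≤ ‖ψ‖ * c := by gcongr
    nlinarith
  refine surjective_of_approx T (2 / c) (by positivity) fun y => ?_
  rcases eq_or_ne y 0 with rfl | hy
  · exact ⟨0, by simp, by simp⟩
  · have hy0 : 0 < ‖y‖ := norm_pos_iff.2 hy
    set a : ℝ := c / (2 * ‖y‖) with ha
    have ha0 : 0 < a := by positivity
    have hay : ‖(a : 𝕜) • y‖ = c / 2 := by
      rw [norm_smul, RCLike.norm_ofReal, abs_of_pos ha0, ha]
      field_simp
    have hmem := key ((a : 𝕜) • y) (by rw [hay]; linarith)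
    rw [Metric.mem_closure_iff] at hmem
    obtain ⟨_, ⟨x, hx, rfl⟩, hdist⟩ := hmem (c / 4) (by positivity)
    rw [mem_closedBall_zero_iff] at hx
    rw [dist_eq_norm, norm_sub_rev] at hdist
    have hane : (a : 𝕜) ≠ 0 := by exact_mod_cast ha0.ne'
    refine ⟨(a : 𝕜)⁻¹ • x, ?_, ?_⟩
    · rw [norm_smul, norm_inv, RCLike.norm_ofReal, abs_of_pos ha0]
      calc a⁻¹ * ‖x‖ ≤ a⁻¹ * 1 := by gcongr
        _ = 2 / c * ‖y‖ := by rw [ha]; field_simp
    · have : T ((a : 𝕜)⁻¹ • x) - y = (a : 𝕜)⁻¹ • (T x - (a : 𝕜) • y) := by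
        rw [map_smul, smul_sub, smul_smul, inv_mul_cancel₀ hane, one_smul]
      rw [this, norm_smul, norm_inv, RCLike.norm_ofReal, abs_of_pos ha0]
      calc a⁻¹ * ‖T x - (a : 𝕜) • y‖ ≤ a⁻¹ * (c / 4) := by gcongr
        _ = 1 / 2 * ‖y‖ := by rw [ha]; field_simp; norm_num

/-- the dual bound only has to be checked on a dense set of functionals -/
theorem surjective_of_dual_bound_dense [CompleteSpace X] (T : X →L[𝕜] Y) {c : ℝ} (hc : 0 < c)
    {D : Set (Y →L[𝕜] 𝕜)} (hD : Dense D)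
    (h : ∀ ψ ∈ D, c * ‖ψ‖ ≤ ‖ψ.comp T‖) : Function.Surjective T := by
  refine surjective_of_dual_bound T hc fun ψ => ?_
  have hcl : IsClosed {ψ : Y →L[𝕜] 𝕜 | c * ‖ψ‖ ≤ ‖ψ.comp T‖} := by
    refine isClosed_le (by fun_prop) ?_
    exact continuous_norm.comp ((ContinuousLinearMap.compL 𝕜 X Y 𝕜).flip T).continuous
  exact hcl.closure_subset_iff.2 (fun ψ hψ => h ψ hψ) (hD ψ)

end

end Crest.Agent.R114.HJ
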