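import Crest.Agent.R114.SepQuot
import Crest.Agent.R114.HJ.Surj

/-!
# R114 / HJ / C0 (helper417): a weak*-null sequence of functionals with a lower `ℓ₁`-estimate
gives a quotient isomorphic to `c₀`, hence a separable infinite-dimensional quotient.
-/

set_option autoImplicit false

namespace Crest.Agent.R114.HJ

open Filter Topology Metric
open scoped ENNReal

section
variable {𝕜 : Type*} [RCLike 𝕜]
variable {X : Type*} [NormedAddCommGroup X] [NormedSpace 𝕜 X]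

/-- the space `ℓ_∞` -/
abbrev EE (𝕜 : Type*) [RCLike 𝕜] := lp (fun _ : ℕ => 𝕜) ∞

/-- unit vectors -/
noncomputable def ee (𝕜 : Type*) [RCLike 𝕜] (m : ℕ) : EE 𝕜 := lp.single ∞ m (1 : 𝕜)

theorem ee_apply (m k : ℕ) : (ee 𝕜 m) k = if k = m then 1 else 0 := by
  unfold ee
  rw [lp.single_apply]
  by_cases h : k = m
  · subst h; simp
  · simp [h]

theorem sum_ee_apply (s : Finset ℕ) (c : ℕ → 𝕜) (k : ℕ) :
    (∑ m ∈ s, c m • ee 𝕜 m) k = if k ∈ s then c k else 0 := by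
  rw [lp.coeFn_sum, Finset.sum_apply]
  have : ∀ m ∈ s, (c m • ee 𝕜 m) k = if m = k then c m else 0 := by
    intro m _
    rw [lp.coeFn_smul, Pi.smul_apply, ee_apply, smul_eq_mul]
    by_cases h : k = m
    · subst h; simp
    · simp [h, Ne.symm h]
  rw [Finset.sum_congr rfl this, Finset.sum_ite_eq']

/-- the copy of `c₀` -/
noncomputable def YY (𝕜 : Type*) [RCLike 𝕜] : Submodule 𝕜 (EE 𝕜) :=
  (Submodule.span 𝕜 (Set.range (ee 𝕜))).topologicalClosure

theorem ee_mem (m : ℕ) : ee 𝕜 m ∈ YY 𝕜 :=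
  Submodule.le_topologicalClosure _ (Submodule.subset_span ⟨m, rfl⟩)

theorem trunc_le (y : EE 𝕜) (n : ℕ) (ε : ℝ) (hε : 0 ≤ ε) (h : ∀ k, n ≤ k → ‖y k‖ ≤ ε) :
    ‖y - ∑ m ∈ Finset.range n, y m • ee 𝕜 m‖ ≤ ε := by
  refine lp.norm_le_of_forall_le hε fun k => ?_
  rw [lp.coeFn_sub, Pi.sub_apply, sum_ee_apply (Finset.range n) (fun m => y m) k]
  by_cases hk : k ∈ Finset.range n
  · rw [if_pos hk, sub_self, norm_zero]; exact hε
  · rw [if_neg hk, sub_zero]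
    exact h k (by simpa using hk)

theorem null_of_mem {y : EE 𝕜} (hy : y ∈ YY 𝕜) {ε : ℝ} (hε : 0 < ε) :
    ∃ n, ∀ k, n ≤ k → ‖y k‖ ≤ ε := by
  have hy' : y ∈ closure (Submodule.span 𝕜 (Set.range (ee 𝕜)) : Set (EE 𝕜)) := hy
  obtain ⟨z, hz, hyz⟩ := Metric.mem_closure_iff.mp hy' ε hε
  have hz' : ∃ n, ∀ k, n ≤ k → z k = 0 := by
    refine Submodule.span_induction (p := fun z _ => ∃ n, ∀ k, n ≤ k → z k = 0) ?_ ?_ ?_ ?_ hz
    · rintro _ ⟨m, rfl⟩
      refine ⟨m + 1, fun k hk => ?_⟩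
      rw [ee_apply, if_neg (by omega)]
    · exact ⟨0, fun k _ => by simp⟩
    · rintro a b _ _ ⟨n, hn⟩ ⟨n', hn'⟩
      refine ⟨max n n', fun k hk => ?_⟩
      rw [lp.coeFn_add, Pi.add_apply, hn k (le_trans (le_max_left _ _) hk),
        hn' k (le_trans (le_max_right _ _) hk), add_zero]
    · rintro c a _ ⟨n, hn⟩
      refine ⟨n, fun k hk => ?_⟩
      rw [lp.coeFn_smul, Pi.smul_apply, hn k hk, smul_zero]
  obtain ⟨n, hn⟩ := hz'
  refine ⟨n, fun k hk => ?_⟩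
  have h1 : y k = (y - z) k := by rw [lp.coeFn_sub, Pi.sub_apply, hn k hk, sub_zero]
  rw [h1]
  rw [dist_eq_norm] at hyz
  exact (lp.norm_apply_le_norm ENNReal.top_ne_zero (y - z) k).trans hyz.le

theorem tendsto_trunc (y : EE 𝕜) (h : ∀ ε : ℝ, 0 < ε → ∃ n, ∀ k, n ≤ k → ‖y k‖ ≤ ε) :
    Tendsto (fun n => ∑ m ∈ Finset.range n, y m • ee 𝕜 m) atTop (𝓝 y) := by
  rw [Metric.tendsto_atTop]
  intro ε hε
  obtain ⟨n, hn⟩ := h (ε / 2) (by positivity)
  refine ⟨n, fun N hN => ?_⟩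
  rw [dist_comm, dist_eq_norm]
  have := trunc_le y N (ε / 2) (by positivity) fun k hk => hn k (hN.trans hk)
  linarith

theorem mem_of_null (y : EE 𝕜) (h : ∀ ε : ℝ, 0 < ε → ∃ n, ∀ k, n ≤ k → ‖y k‖ ≤ ε) :
    y ∈ YY 𝕜 := by
  have hcl : IsClosed (YY 𝕜 : Set (EE 𝕜)) := Submodule.isClosed_topologicalClosure _
  refine hcl.mem_of_tendsto (tendsto_trunc y h) (Eventually.of_forall fun n => ?_)
  exact Submodule.sum_mem _ fun m _ => Submodule.smul_mem _ _ (ee_mem m)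

instance : TopologicalSpace.SeparableSpace (YY 𝕜) := by
  have h1 : TopologicalSpace.IsSeparable (YY 𝕜 : Set (EE 𝕜)) :=
    ((Set.countable_range (ee 𝕜)).isSeparable.span (R := 𝕜)).closure
  exact h1.separableSpace

instance : CompleteSpace (YY 𝕜) := by
  unfold YY; infer_instance

/-- unit vectors in `c₀` -/
noncomputable def ey (𝕜 : Type*) [RCLike 𝕜] (m : ℕ) : YY 𝕜 := ⟨ee 𝕜 m, ee_mem m⟩

theorem not_finiteDimensional_YY : ¬ FiniteDimensional 𝕜 (YY 𝕜) := by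
  intro hfd
  have hli : LinearIndependent 𝕜 (ey 𝕜) := by
    rw [linearIndependent_iff']
    intro s g hg i hi
    have h1 : ((∑ m ∈ s, g m • ey 𝕜 m : YY 𝕜) : EE 𝕜) i = 0 := by rw [hg]; simp
    have h2 : ((∑ m ∈ s, g m • ey 𝕜 m : YY 𝕜) : EE 𝕜) = ∑ m ∈ s, g m • ee 𝕜 m := by
      simp [ey]
    rw [h2, sum_ee_apply, if_pos hi] at h1
    exact h1
  have := hli.finite_of_isNoetherian
  exact not_finite ℕ

/-- the operator `x ↦ (d_k x)` -/
noncomputable def TT (d : ℕ → X →L[𝕜] 𝕜) (hd : ∀ k, ‖d k‖ ≤ 1) : X →L[𝕜] EE 𝕜 :=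
  LinearMap.mkContinuous
    { toFun := fun x => ⟨fun k => d k x, memℓp_infty ⟨‖x‖, by
        rintro _ ⟨k, rfl⟩
        calc ‖d k x‖ ≤ ‖d k‖ * ‖x‖ := (d k).le_opNorm x
          _ ≤ 1 * ‖x‖ := by gcongr; exact hd k
          _ = ‖x‖ := one_mul _⟩⟩
      map_add' := fun x y => by
        ext k; simp
      map_smul' := fun c x => by
        ext k; simp } 1 (fun x => by
      refine lp.norm_le_of_forall_le (by positivity) fun k => ?_
      calc ‖d k x‖ ≤ ‖d k‖ * ‖x‖ := (d k).le_opNorm x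
          _ ≤ 1 * ‖x‖ := by gcongr; exact hd k)

theorem TT_apply (d : ℕ → X →L[𝕜] 𝕜) (hd : ∀ k, ‖d k‖ ≤ 1) (x : X) (k : ℕ) :
    TT d hd x k = d k x := rfl

theorem sepQuot_of_null [CompleteSpace X] (d : ℕ → X →L[𝕜] 𝕜) (hd : ∀ k, ‖d k‖ ≤ 1) {ρ : ℝ}
    (hρ : 0 < ρ)
    (hl : ∀ (s : Finset ℕ) (c : ℕ → 𝕜), ρ * ∑ i ∈ s, ‖c i‖ ≤ ‖∑ i ∈ s, c i • d i‖)
    (h0 : ∀ x, Tendsto (fun k => d k x) atTop (𝓝 0)) : SepQuot 𝕜 X := by
  have hmem : ∀ x, TT d hd x ∈ YY 𝕜 := by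
    intro x
    refine mem_of_null _ fun ε hε => ?_
    obtain ⟨n, hn⟩ := Metric.tendsto_atTop.mp (h0 x) ε hε
    refine ⟨n, fun k hk => ?_⟩
    have := hn k hk
    rw [dist_zero_right] at this
    exact this.le
  let T : X →L[𝕜] YY 𝕜 := (TT d hd).codRestrict (YY 𝕜) hmem
  have hsurj : Function.Surjective T := by
    refine surjective_of_dual_bound T hρ fun ψ => ?_
    -- coefficients
    set a : ℕ → 𝕜 := fun m => ψ (ey 𝕜 m) with ha
    have hfin : ∀ s : Finset ℕ, ∑ m ∈ s, ‖a m‖ ≤ ‖ψ‖ := by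
      intro s
      have hsg : ∀ z : 𝕜, ∃ l : 𝕜, ‖l‖ ≤ 1 ∧ l * z = (‖z‖ : 𝕜) := by
        intro z
        obtain ⟨l, hl1, hl2⟩ := RCLike.exists_norm_eq_mul_self z
        exact ⟨l, hl1.le, hl2.symm⟩
      choose l hl1 hl2 using hsg
      let y : YY 𝕜 := ∑ m ∈ s, l (a m) • ey 𝕜 m
      have hy1 : ‖y‖ ≤ 1 := by
        show ‖((∑ m ∈ s, l (a m) • ey 𝕜 m : YY 𝕜) : EE 𝕜)‖ ≤ 1
        have h2 : ((∑ m ∈ s, l (a m) • ey 𝕜 m : YY 𝕜) : EE 𝕜) = ∑ m ∈ s, l (a m) • ee 𝕜 m := by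
          simp [ey]
        rw [h2]
        refine lp.norm_le_of_forall_le zero_le_one fun k => ?_
        rw [sum_ee_apply s (fun m => l (a m)) k]
        split_ifs
        · exact hl1 _
        · simp
      have hy2 : ψ y = ((∑ m ∈ s, ‖a m‖ : ℝ) : 𝕜) := by
        simp only [y, map_sum, map_smul, smul_eq_mul]
        exact Finset.sum_congr rfl fun m _ => hl2 _
      have hnn : 0 ≤ ∑ m ∈ s, ‖a m‖ := Finset.sum_nonneg fun _ _ => norm_nonneg _
      calc ∑ m ∈ s, ‖a m‖ = ‖ψ y‖ := by rw [hy2, RCLike.norm_ofReal, abs_of_nonneg hnn]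
        _ ≤ ‖ψ‖ * ‖y‖ := ψ.le_opNorm y
        _ ≤ ‖ψ‖ * 1 := by gcongr
        _ = ‖ψ‖ := mul_one _
    have hsum : Summable fun m => ‖a m‖ :=
      summable_of_sum_le (fun _ => norm_nonneg _) hfin
    set A : ℝ := ∑' m, ‖a m‖ with hA
    -- `ψ y = lim ∑ y_m a_m`
    have hlim : ∀ y : YY 𝕜, Tendsto (fun n => ∑ m ∈ Finset.range n, (y : EE 𝕜) m * a m) atTop
        (𝓝 (ψ y)) := by
      intro y
      have h1 := tendsto_trunc (y : EE 𝕜) fun ε hε => null_of_mem y.2 hε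
      have h2 : Tendsto (fun n => ∑ m ∈ Finset.range n, (y : EE 𝕜) m • ey 𝕜 m) atTop (𝓝 y) := by
        rw [tendsto_subtype_rng]
        simpa [ey] using h1
      have h3 := (ψ.continuous.tendsto y).comp h2
      refine h3.congr fun n => ?_
      simp [ha]
    have hψ : ‖ψ‖ ≤ A := by
      refine ContinuousLinearMap.opNorm_le_bound _ (tsum_nonneg fun _ => norm_nonneg _) fun y => ?_
      refine le_of_tendsto (hlim y).norm (Eventually.of_forall fun n => ?_)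
      calc ‖∑ m ∈ Finset.range n, (y : EE 𝕜) m * a m‖
          ≤ ∑ m ∈ Finset.range n, ‖(y : EE 𝕜) m * a m‖ := norm_sum_le _ _
        _ ≤ ∑ m ∈ Finset.range n, ‖y‖ * ‖a m‖ := by
            refine Finset.sum_le_sum fun m _ => ?_
            rw [norm_mul]
            gcongr
            exact lp.norm_apply_le_norm ENNReal.top_ne_zero (y : EE 𝕜) m
        _ = (∑ m ∈ Finset.range n, ‖a m‖) * ‖y‖ := by rw [← Finset.mul_sum, mul_comm]
        _ ≤ A * ‖y‖ := by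
            gcongr
            exact hsum.sum_le_tsum _ fun _ _ => norm_nonneg _
    -- lower bound
    have hlow : ∀ n, ρ * ∑ m ∈ Finset.range n, ‖a m‖ ≤
        ‖ψ.comp T‖ + (A - ∑ m ∈ Finset.range n, ‖a m‖) := by
      intro n
      refine (hl (Finset.range n) a).trans ?_
      have htail : 0 ≤ A - ∑ m ∈ Finset.range n, ‖a m‖ :=
        sub_nonneg.mpr (hsum.sum_le_tsum _ fun _ _ => norm_nonneg _)
      refine ContinuousLinearMap.opNorm_le_bound _ (add_nonneg (norm_nonneg _) htail) fun x => ?_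
      have h1 : (∑ m ∈ Finset.range n, a m • d m) x = ∑ m ∈ Finset.range n, d m x * a m := by
        simp [mul_comm]
      have h2 : ‖∑ m ∈ Finset.range n, d m x * a m - ψ (T x)‖ ≤
          (A - ∑ m ∈ Finset.range n, ‖a m‖) * ‖x‖ := by
        have h3 := (tendsto_const_nhds (x := ∑ m ∈ Finset.range n, d m x * a m)).sub (hlim (T x))
        refine le_of_tendsto h3.norm ?_
        filter_upwards [eventually_ge_atTop n] with N hN
        have h4 : ∀ m, ((T x : YY 𝕜) : EE 𝕜) m = d m x := fun m => rfl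
        simp only [h4]
        rw [norm_sub_rev, ← Finset.sum_range_add_sum_Ico _ hN, add_sub_cancel_left]
        calc ‖∑ m ∈ Finset.Ico n N, d m x * a m‖
            ≤ ∑ m ∈ Finset.Ico n N, ‖d m x * a m‖ := norm_sum_le _ _
          _ ≤ ∑ m ∈ Finset.Ico n N, ‖a m‖ * ‖x‖ := by
              refine Finset.sum_le_sum fun m _ => ?_
              rw [norm_mul, mul_comm]
              gcongr
              calc ‖d m x‖ ≤ ‖d m‖ * ‖x‖ := (d m).le_opNorm x
                _ ≤ 1 * ‖x‖ := by gcongr; exact hd m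
                _ = ‖x‖ := one_mul _
          _ = (∑ m ∈ Finset.Ico n N, ‖a m‖) * ‖x‖ := by rw [Finset.sum_mul]
          _ ≤ (A - ∑ m ∈ Finset.range n, ‖a m‖) * ‖x‖ := by
              gcongr
              have h5 : ∑ m ∈ Finset.range N, ‖a m‖ ≤ A :=
                hsum.sum_le_tsum _ fun _ _ => norm_nonneg _
              rw [← Finset.sum_range_add_sum_Ico _ hN] at h5
              linarith
      rw [h1]
      calc ‖∑ m ∈ Finset.range n, d m x * a m‖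
          = ‖ψ (T x) + (∑ m ∈ Finset.range n, d m x * a m - ψ (T x))‖ := by congr 1; ring
        _ ≤ ‖ψ (T x)‖ + ‖∑ m ∈ Finset.range n, d m x * a m - ψ (T x)‖ := norm_add_le _ _
        _ ≤ ‖ψ.comp T‖ * ‖x‖ + (A - ∑ m ∈ Finset.range n, ‖a m‖) * ‖x‖ := by
            gcongr
            exact (ψ.comp T).le_opNorm x
        _ = (‖ψ.comp T‖ + (A - ∑ m ∈ Finset.range n, ‖a m‖)) * ‖x‖ := by ring
    have hAn : Tendsto (fun n => ∑ m ∈ Finset.range n, ‖a m‖) atTop (𝓝 A) :=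
      hsum.hasSum.tendsto_sum_nat
    have h6 : ρ * A ≤ ‖ψ.comp T‖ + (A - A) :=
      le_of_tendsto_of_tendsto' (hAn.const_mul ρ)
        (tendsto_const_nhds.add (tendsto_const_nhds.sub hAn)) hlow
    calc ρ * ‖ψ‖ ≤ ρ * A := by gcongr
      _ ≤ ‖ψ.comp T‖ := by linarith
  exact SepQuot.of_surjective T hsurj
    (SepQuot.of_separable not_finiteDimensional_YY inferInstance)

end

end Crest.Agent.R114.HJ
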