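import Crest.Agent.R114.SepQuot
import Crest.Agent.R114.VT6
import Crest.Agent.R114.HJ.Rad
import Crest.Agent.R114.HJ.Surj

/-!
# R114 / HJ / L2 (helper777): a tree of functionals gives an `ℓ²` quotient
-/

set_option autoImplicit false

namespace Crest.Agent.R114.HJ

open Filter Topology Finset
open Crest.Agent.R114.V.T6aux (ulim tendsto_ulim ulim_add ulim_smul L2 sepQuot_L2 le_hyperfilter)

section
variable {𝕜 : Type*} [RCLike 𝕜]

theorem av_mul_le (n : ℕ) (f g : ℕ → ℝ) :
    av n (fun s => f s * g s) ≤ √(av n (fun s => f s ^ 2)) * √(av n (fun s => g s ^ 2)) := by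
  unfold av
  simp only [smul_eq_mul]
  have h0 : (0 : ℝ) ≤ ((2 : ℝ) ^ n)⁻¹ := by positivity
  rw [Real.sqrt_mul h0, Real.sqrt_mul h0]
  have h1 := Real.sum_mul_le_sqrt_mul_sqrt (range (2 ^ n)) f g
  have h2 : √(((2 : ℝ) ^ n)⁻¹) * √(((2 : ℝ) ^ n)⁻¹) = ((2 : ℝ) ^ n)⁻¹ := Real.mul_self_sqrt h0
  calc ((2 : ℝ) ^ n)⁻¹ * ∑ s ∈ range (2 ^ n), f s * g s
      ≤ ((2 : ℝ) ^ n)⁻¹ * (√(∑ s ∈ range (2 ^ n), f s ^ 2) * √(∑ s ∈ range (2 ^ n), g s ^ 2)) :=
        mul_le_mul_of_nonneg_left h1 h0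
    _ = (√(((2 : ℝ) ^ n)⁻¹) * √(((2 : ℝ) ^ n)⁻¹)) *
          (√(∑ s ∈ range (2 ^ n), f s ^ 2) * √(∑ s ∈ range (2 ^ n), g s ^ 2)) := by rw [h2]
    _ = _ := by ring

/-- the conjugated Rademacher sum -/
noncomputable def csum (m : ℕ) (y : ℕ → 𝕜) (s : ℕ) : 𝕜 :=
  ∑ i ∈ range m, rad i s • (starRingEnd 𝕜) (y i)

theorem csum_add {m k : ℕ} (h : m ≤ k) (y : ℕ → 𝕜) (s : ℕ) :
    csum m y (2 ^ k + s) = csum m y s := by
  unfold csum
  exact sum_congr rfl fun i hi => by rw [rad_add (lt_of_lt_of_le (mem_range.1 hi) h)]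

theorem re_csum (m : ℕ) (y : ℕ → 𝕜) (s : ℕ) :
    RCLike.re (csum m y s) = rsum m (fun i => RCLike.re (y i)) s := by
  unfold csum rsum
  rw [map_sum]
  refine sum_congr rfl fun i _ => ?_
  rw [RCLike.smul_re, RCLike.conj_re]; ring

theorem im_csum (m : ℕ) (y : ℕ → 𝕜) (s : ℕ) :
    RCLike.im (csum m y s) = - rsum m (fun i => RCLike.im (y i)) s := by
  unfold csum rsum
  rw [map_sum, ← sum_neg_distrib]
  refine sum_congr rfl fun i _ => ?_
  rw [RCLike.smul_im, RCLike.conj_im]; ring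

theorem av_csum_sq {m n : ℕ} (hmn : m ≤ n) (y : ℕ → 𝕜) :
    av n (fun s => ‖csum m y s‖ ^ 2) = ∑ i ∈ range m, ‖y i‖ ^ 2 := by
  have h1 : av n (fun s => ‖csum m y s‖ ^ 2) = av m (fun s => ‖csum m y s‖ ^ 2) :=
    av_stable (fun k hk s => by simp only [csum_add hk]) hmn
  rw [h1]
  have h2 : (fun s => ‖csum m y s‖ ^ 2) = fun s => rsum m (fun i => RCLike.re (y i)) s ^ 2 +
      rsum m (fun i => RCLike.im (y i)) s ^ 2 := by
    funext s
    rw [RCLike.norm_sq_eq_def, re_csum, im_csum]; ring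
  rw [h2, av_add, av_rsum_sq, av_rsum_sq, ← sum_add_distrib]
  refine sum_congr rfl fun i _ => ?_
  rw [RCLike.norm_sq_eq_def]; ring

theorem map_av {E F : Type*} [AddCommGroup E] [Module ℝ E] [AddCommGroup F] [Module ℝ F]
    (P : E →ₗ[ℝ] F) (n : ℕ) (f : ℕ → E) : P (av n f) = av n (fun s => P (f s)) := by
  unfold av
  rw [map_smul, map_sum]

/-- the main estimate -/
theorem tree_key (y : ℕ → 𝕜) {m n : ℕ} (hmn : m ≤ n) (a : ℕ → ℝ) (P : 𝕜 →ₗ[ℝ] ℝ)
    (hP : ∀ z, |P z| ≤ ‖z‖) (σ : ℝ) (hσ : |σ| = 1) (hPa : ∀ s, P (csum m y s) = σ * rsum m a s)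
    (c : ℕ) (hc : ∀ s, sgc m c s * rsum m a s = |rsum m a s|) {D : ℝ} (hD : 0 < D)
    (e : ℕ → 𝕜) (he : av n (fun s => ‖e s - ((D * sgc m c s : ℝ) : 𝕜)‖ ^ 2) ≤ D ^ 2 / 100) :
    D * (5 / 9 * √(∑ i ∈ range m, a i ^ 2) - 1 / 10 * √(∑ i ∈ range m, ‖y i‖ ^ 2)) ≤
      ‖∑ i ∈ range m, (starRingEnd 𝕜) (y i) * av n (fun s => rad i s • e s)‖ := by
  set Y : ℝ := √(∑ i ∈ range m, ‖y i‖ ^ 2) with hY
  have h1 : ∑ i ∈ range m, (starRingEnd 𝕜) (y i) * av n (fun s => rad i s • e s)
      = av n (fun s => csum m y s * e s) := by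
    have h2 : ∀ i ∈ range m, (starRingEnd 𝕜) (y i) * av n (fun s => rad i s • e s)
        = av n (fun s => (rad i s • (starRingEnd 𝕜) (y i)) * e s) := by
      intro i _
      unfold av
      rw [mul_smul_comm, mul_sum]
      congr 1
      refine sum_congr rfl fun s _ => ?_
      change (starRingEnd 𝕜) (y i) * (rad i s • e s) = (rad i s • (starRingEnd 𝕜) (y i)) * e s
      rw [mul_smul_comm, smul_mul_assoc]
    rw [sum_congr rfl h2, ← av_sum]
    congr 1
    funext s
    rw [csum, sum_mul]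
  have h3 : av n (fun s => csum m y s * e s)
      = av n (fun s => csum m y s * ((D * sgc m c s : ℝ) : 𝕜)) +
        av n (fun s => csum m y s * (e s - ((D * sgc m c s : ℝ) : 𝕜))) := by
    rw [← av_add]
    congr 1
    funext s
    ring
  have h4 : ‖av n (fun s => csum m y s * (e s - ((D * sgc m c s : ℝ) : 𝕜)))‖ ≤ Y * (D / 10) := by
    calc ‖av n (fun s => csum m y s * (e s - ((D * sgc m c s : ℝ) : 𝕜)))‖
        ≤ av n (fun s => ‖csum m y s‖ * ‖e s - ((D * sgc m c s : ℝ) : 𝕜)‖) := by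
          refine (norm_av_le n _).trans (le_of_eq ?_)
          congr 1
          funext s
          exact norm_mul _ _
      _ ≤ √(av n (fun s => ‖csum m y s‖ ^ 2)) *
            √(av n (fun s => ‖e s - ((D * sgc m c s : ℝ) : 𝕜)‖ ^ 2)) := av_mul_le n _ _
      _ ≤ Y * (D / 10) := by
          rw [av_csum_sq hmn]
          refine mul_le_mul_of_nonneg_left ?_ (Real.sqrt_nonneg _)
          rw [show D / 10 = √(D ^ 2 / 100) by
            rw [show D ^ 2 / 100 = (D / 10) ^ 2 by ring, Real.sqrt_sq (by positivity)]]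
          exact Real.sqrt_le_sqrt he
  have h5 : D * (5 / 9 * √(∑ i ∈ range m, a i ^ 2)) ≤
      ‖av n (fun s => csum m y s * ((D * sgc m c s : ℝ) : 𝕜))‖ := by
    have h6 : P (av n (fun s => csum m y s * ((D * sgc m c s : ℝ) : 𝕜)))
        = σ * (D * av n (fun s => |rsum m a s|)) := by
      rw [map_av]
      rw [← av_const_mul, ← av_const_mul]
      congr 1
      funext s
      rw [mul_comm (csum m y s), ← RCLike.real_smul_eq_coe_mul, map_smul, hPa, ← hc, smul_eq_mul]
      ring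
    have h7 := hP (av n (fun s => csum m y s * ((D * sgc m c s : ℝ) : 𝕜)))
    rw [h6, abs_mul, hσ, one_mul, abs_mul, abs_of_pos hD] at h7
    refine le_trans ?_ h7
    refine mul_le_mul_of_nonneg_left ?_ hD.le
    exact (khintchine hmn a).trans (le_abs_self _)
  rw [h1, h3]
  have h8 := norm_sub_le_norm_add (av n (fun s => csum m y s * ((D * sgc m c s : ℝ) : 𝕜)))
    (av n (fun s => csum m y s * (e s - ((D * sgc m c s : ℝ) : 𝕜))))
  nlinarith

/-- Rademacher coefficients of the restriction of `z` to the tree -/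
noncomputable def tco {X : Type*} [NormedAddCommGroup X] [NormedSpace 𝕜 X]
    (g : ℕ → X →L[𝕜] 𝕜) (τ : ℕ → ℕ → ℕ) (z : X) (n i : ℕ) : 𝕜 :=
  if i < n then av n (fun s => rad i s • g (τ n s) z) else 0

theorem sepQuot_of_tree {X : Type*} [NormedAddCommGroup X] [NormedSpace 𝕜 X] [CompleteSpace X]
    (g : ℕ → X →L[𝕜] 𝕜) (hg : ∀ k, ‖g k‖ ≤ 1) {D : ℝ} (hD : 0 < D)
    (x : ℕ → X) (hx : ∀ n, ‖x n‖ ≤ 1) (τ : ℕ → ℕ → ℕ)
    (h : ∀ j, ∀ᶠ n in atTop, av n (fun s => ‖g (τ n s) (x j) -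
      (D * sgc (Nat.unpair j).1 (Nat.unpair j).2 s : ℝ)‖ ^ 2) ≤ D ^ 2 / 100) : SepQuot 𝕜 X := by
  classical
  have hgz : ∀ k z, ‖g k z‖ ≤ ‖z‖ := fun k z =>
    ((g k).le_opNorm z).trans (mul_le_of_le_one_left (norm_nonneg _) (hg k))
  have hsum : ∀ (z : X) (n : ℕ) (J : Finset ℕ), ∑ i ∈ J, ‖tco g τ z n i‖ ^ 2 ≤ ‖z‖ ^ 2 := by
    intro z n J
    calc ∑ i ∈ J, ‖tco g τ z n i‖ ^ 2 = ∑ i ∈ J ∩ range n, ‖tco g τ z n i‖ ^ 2 := by
          symm
          refine sum_subset inter_subset_left fun j hj hj2 => ?_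
          have h2 : ¬ j < n := fun h => hj2 (mem_inter.mpr ⟨hj, mem_range.mpr h⟩)
          simp [tco, h2]
      _ ≤ ∑ i ∈ range n, ‖tco g τ z n i‖ ^ 2 :=
          sum_le_sum_of_subset_of_nonneg inter_subset_right fun _ _ _ => by positivity
      _ = ∑ i ∈ range n, ‖av n (fun s => rad i s • g (τ n s) z)‖ ^ 2 := by
          refine sum_congr rfl fun i hi => ?_
          rw [tco, if_pos (mem_range.1 hi)]
      _ ≤ av n (fun s => ‖g (τ n s) z‖ ^ 2) := bessel n _
      _ ≤ av n (fun _ => ‖z‖ ^ 2) := av_mono fun s _ => by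
          exact pow_le_pow_left₀ (norm_nonneg _) (hgz _ _) 2
      _ = ‖z‖ ^ 2 := av_const _ _
  have hcob : ∀ z n i, ‖tco g τ z n i‖ ≤ ‖z‖ := by
    intro z n i
    have h1 := hsum z n {i}
    rw [sum_singleton] at h1
    exact (sq_le_sq₀ (norm_nonneg _) (norm_nonneg _)).mp h1
  have hTsum : ∀ (z : X) (J : Finset ℕ),
      ∑ i ∈ J, ‖ulim (fun n => tco g τ z n i)‖ ^ 2 ≤ ‖z‖ ^ 2 := by
    intro z J
    have h1 : Tendsto (fun n => ∑ i ∈ J, ‖tco g τ z n i‖ ^ 2) (hyperfilter ℕ : Filter ℕ)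
        (𝓝 (∑ i ∈ J, ‖ulim (fun n => tco g τ z n i)‖ ^ 2)) :=
      tendsto_finsetSum _ fun i _ => ((tendsto_ulim fun n => hcob z n i).norm).pow 2
    exact le_of_tendsto h1 (Eventually.of_forall fun n => hsum z n J)
  have hmem : ∀ z : X, Memℓp (fun i => ulim (fun n => tco g τ z n i)) 2 := by
    intro z
    refine memℓp_gen' (C := ‖z‖ ^ 2) fun s => ?_
    simpa only [ENNReal.toReal_ofNat, Real.rpow_ofNat] using hTsum z s
  let T0 : X →ₗ[𝕜] L2 𝕜 :=
    { toFun := fun z => ⟨fun i => ulim (fun n => tco g τ z n i), hmem z⟩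
      map_add' := by
        intro z w
        ext i
        change ulim (fun n => tco g τ (z + w) n i) =
          ulim (fun n => tco g τ z n i) + ulim (fun n => tco g τ w n i)
        rw [← ulim_add (fun n => hcob z n i) (fun n => hcob w n i)]
        congr 1
        funext n
        unfold tco
        split_ifs
        · rw [← av_add]
          congr 1
          funext s
          rw [map_add, smul_add]
        · simp
      map_smul' := by
        intro a z
        ext i
        change ulim (fun n => tco g τ (a • z) n i) = a * ulim (fun n => tco g τ z n i)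
        rw [← ulim_smul a (fun n => hcob z n i)]
        congr 1
        funext n
        unfold tco
        split_ifs
        · unfold av
          rw [mul_smul_comm, mul_sum]
          congr 1
          refine sum_congr rfl fun s _ => ?_
          change rad i s • g (τ n s) (a • z) = a * rad i s • g (τ n s) z
          rw [map_smul, smul_eq_mul, mul_smul_comm]
        · simp }
  let T : X →L[𝕜] L2 𝕜 := T0.mkContinuous 1 fun z => by
    rw [one_mul]
    refine lp.norm_le_of_forall_sum_le (by simp) (norm_nonneg _) fun s => ?_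
    simp only [ENNReal.toReal_ofNat, Real.rpow_ofNat]
    exact hTsum z s
  have hTapp : ∀ z i, (T z : ℕ → 𝕜) i = ulim (fun n => tco g τ z n i) := fun z i => rfl
  -- the dense set of finitely supported vectors
  set S : Set (L2 𝕜) := {y | ∃ m, ∀ i, m ≤ i → y i = 0} with hS
  have hSd : Dense S := by
    intro z
    have h2 := lp.hasSum_single (p := 2) (by norm_num) z
    refine mem_closure_of_tendsto h2 (Eventually.of_forall fun s => ?_)
    obtain ⟨m, hm⟩ : ∃ m, ∀ i ∈ s, i < m := ⟨s.sup id + 1, fun i hi =>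
      Nat.lt_succ_of_le (Finset.le_sup (f := id) hi)⟩
    refine ⟨m, fun i hi => ?_⟩
    rw [lp.coeFn_sum, Finset.sum_apply]
    refine Finset.sum_eq_zero fun j hj => ?_
    have : i ≠ j := fun h => absurd (hm j hj) (by omega)
    rw [lp.single_apply]
    simp [this]
  have hsurj : Function.Surjective T := by
    refine surjective_of_dual_bound_dense T (c := D / 4) (by positivity)
      (D := (InnerProductSpace.toDual 𝕜 (L2 𝕜)) '' S) ?_ ?_
    · exact (InnerProductSpace.toDual 𝕜 (L2 𝕜)).surjective.denseRange.dense_image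
        (InnerProductSpace.toDual 𝕜 (L2 𝕜)).continuous hSd
    · rintro _ ⟨y, ⟨m, hm⟩, rfl⟩
      rw [LinearIsometryEquiv.norm_map]
      -- the norm of `y`
      have hynorm : ‖y‖ ^ 2 = ∑ i ∈ range m, ‖y i‖ ^ 2 := by
        have h1 := lp.norm_rpow_eq_tsum (p := 2) (by simp) y
        simp only [ENNReal.toReal_ofNat, Real.rpow_ofNat] at h1
        rw [h1]
        refine tsum_eq_sum fun i hi => ?_
        rw [hm i (by simpa using hi)]
        simp
      have hysqrt : √(∑ i ∈ range m, ‖y i‖ ^ 2) = ‖y‖ := by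
        rw [← hynorm, Real.sqrt_sq (norm_nonneg _)]
      have hinner : ∀ j, ((InnerProductSpace.toDual 𝕜 (L2 𝕜)) y) (T (x j)) =
          ∑ i ∈ range m, (starRingEnd 𝕜) (y i) * ulim (fun n => tco g τ (x j) n i) := by
        intro j
        rw [InnerProductSpace.toDual_apply_apply, lp.inner_eq_tsum]
        rw [tsum_eq_sum (s := range m)]
        · refine sum_congr rfl fun i _ => ?_
          rw [hTapp, RCLike.inner_apply, mul_comm]
        · intro i hi
          rw [hm i (by simpa using hi)]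
          simp
      have hgen : ∀ (a : ℕ → ℝ) (P : 𝕜 →ₗ[ℝ] ℝ) (_ : ∀ z, |P z| ≤ ‖z‖) (σ : ℝ) (_ : |σ| = 1)
          (_ : ∀ s, P (csum m (fun i => y i) s) = σ * rsum m a s)
          (_ : ‖y‖ ^ 2 / 2 ≤ ∑ i ∈ range m, a i ^ 2),
          D / 4 * ‖y‖ ≤ ‖((InnerProductSpace.toDual 𝕜 (L2 𝕜)) y).comp T‖ := by
        intro a P hP σ hσ hPa ha
        obtain ⟨c, hc⟩ := exists_sgc m a
        set j := Nat.pair m c with hj
        have h1 : D * (5 / 9 * √(∑ i ∈ range m, a i ^ 2) - 1 / 10 * ‖y‖) ≤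
            ‖((InnerProductSpace.toDual 𝕜 (L2 𝕜)) y) (T (x j))‖ := by
          rw [hinner]
          have h2 : Tendsto (fun n => ‖∑ i ∈ range m, (starRingEnd 𝕜) (y i) * tco g τ (x j) n i‖)
              (hyperfilter ℕ : Filter ℕ) (𝓝 ‖∑ i ∈ range m, (starRingEnd 𝕜) (y i) *
                ulim (fun n => tco g τ (x j) n i)‖) :=
            (tendsto_finsetSum _ fun i _ =>
              (tendsto_ulim fun n => hcob (x j) n i).const_mul _).norm
          refine ge_of_tendsto h2 (le_hyperfilter ?_)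
          filter_upwards [h j, eventually_ge_atTop m] with n hn hmn
          have h3 := tree_key (fun i => (y i : 𝕜)) hmn a P hP σ hσ hPa c hc hD
            (fun s => g (τ n s) (x j)) (by
              have := hn
              rw [hj, Nat.unpair_pair] at this
              exact this)
          rw [hysqrt] at h3
          refine h3.trans (le_of_eq ?_)
          congr 1
          refine sum_congr rfl fun i hi => ?_
          rw [tco, if_pos (lt_of_lt_of_le (mem_range.1 hi) hmn)]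
        have h4 : ‖((InnerProductSpace.toDual 𝕜 (L2 𝕜)) y) (T (x j))‖ ≤
            ‖((InnerProductSpace.toDual 𝕜 (L2 𝕜)) y).comp T‖ := by
          have h5 := (((InnerProductSpace.toDual 𝕜 (L2 𝕜)) y).comp T).le_opNorm (x j)
          exact h5.trans (mul_le_of_le_one_right (norm_nonneg _) (hx j))
        refine le_trans ?_ (h1.trans h4)
        have h6 : 7 / 10 * ‖y‖ ≤ √(∑ i ∈ range m, a i ^ 2) := by
          apply Real.le_sqrt_of_sq_le
          nlinarith [sq_nonneg ‖y‖]
        have h7 : 1 / 4 * ‖y‖ ≤ 5 / 9 * √(∑ i ∈ range m, a i ^ 2) - 1 / 10 * ‖y‖ := by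
          nlinarith [norm_nonneg y]
        calc D / 4 * ‖y‖ = D * (1 / 4 * ‖y‖) := by ring
          _ ≤ _ := mul_le_mul_of_nonneg_left h7 hD.le
      have hsplit : (∑ i ∈ range m, RCLike.re (y i) ^ 2) + (∑ i ∈ range m, RCLike.im (y i) ^ 2)
          = ‖y‖ ^ 2 := by
        rw [hynorm, ← sum_add_distrib]
        refine sum_congr rfl fun i _ => ?_
        rw [RCLike.norm_sq_eq_def]; ring
      rcases le_total (‖y‖ ^ 2 / 2) (∑ i ∈ range m, RCLike.re (y i) ^ 2) with hA | hA
      · refine hgen (fun i => RCLike.re (y i)) RCLike.reLm (fun z => RCLike.abs_re_le_norm z) 1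
          (by simp) (fun s => ?_) hA
        rw [one_mul]
        exact re_csum m _ s
      · refine hgen (fun i => RCLike.im (y i)) RCLike.imLm (fun z => RCLike.abs_im_le_norm z) (-1)
          (by simp) (fun s => ?_) (by linarith)
        rw [neg_one_mul]
        exact im_csum m _ s
  exact SepQuot.of_surjective T hsurj sepQuot_L2

end

end Crest.Agent.R114.HJ
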