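import Mathlib
import Crest.Agent.R114.HJ.Rad

/-!
# R114 / HJ / Tree (helper935): the tree of `2^n`-tuples for a stable sequence of functionals
-/

set_option autoImplicit false

namespace Crest.Agent.R114.HJ

open Filter Topology

section
variable {𝕜 : Type*} [RCLike 𝕜]

theorem re_av (n : ℕ) (f : ℕ → 𝕜) : RCLike.re (av n f) = av n (fun s => RCLike.re (f s)) := by
  unfold av
  rw [RCLike.smul_re, map_sum, smul_eq_mul]

theorem av_smul_left (n : ℕ) (u : 𝕜) (f : ℕ → 𝕜) : av n (fun s => u * f s) = u * av n f := by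
  unfold av
  rw [← Finset.mul_sum, mul_smul_comm]

theorem norm_sub_real_sq (a : 𝕜) {D F : ℝ} (hF : |F| = 1) :
    ‖a - ((D * F : ℝ) : 𝕜)‖ ^ 2 = ‖a‖ ^ 2 - 2 * D * (F * RCLike.re a) + D ^ 2 := by
  rw [RCLike.norm_sq_eq_def, RCLike.norm_sq_eq_def]
  simp only [map_sub, RCLike.ofReal_re, RCLike.ofReal_im, sub_zero]
  have h2 : F ^ 2 = 1 := by rw [← sq_abs, hF, one_pow]
  have : (D * F) ^ 2 = D ^ 2 := by rw [mul_pow, h2, mul_one]
  nlinarith

/-- if the values are almost bounded by `D` and the signed average is almost `D` then the values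
are close to `D F` in quadratic mean -/
theorem av_close {n : ℕ} {a : ℕ → 𝕜} {F : ℕ → ℝ} (hF : ∀ s, |F s| = 1) {D δ : ℝ} (hD : 0 < D)
    (_hδ : 0 ≤ δ) (ha : ∀ s < 2 ^ n, ‖a s‖ ≤ D + δ)
    (hre : D - δ ≤ RCLike.re (av n (fun s => F s • a s))) :
    av n (fun s => ‖a s - ((D * F s : ℝ) : 𝕜)‖ ^ 2) ≤ 4 * D * δ + δ ^ 2 := by
  have h1 : (fun s => ‖a s - ((D * F s : ℝ) : 𝕜)‖ ^ 2) =
      fun s => (‖a s‖ ^ 2 - (2 * D) * (F s * RCLike.re (a s))) + D ^ 2 := by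
    funext s; exact norm_sub_real_sq _ (hF s)
  rw [h1, av_add, av_sub, av_const_mul, av_const]
  have h2 : av n (fun s => ‖a s‖ ^ 2) ≤ (D + δ) ^ 2 := by
    calc av n (fun s => ‖a s‖ ^ 2) ≤ av n (fun _ => (D + δ) ^ 2) :=
          av_mono fun s hs => by
            have := ha s hs
            gcongr
      _ = _ := av_const _ _
  rw [re_av] at hre
  have h3 : (fun s => RCLike.re (F s • a s)) = fun s => F s * RCLike.re (a s) := by
    funext s; rw [RCLike.smul_re]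
  rw [h3] at hre
  nlinarith

end

/-- successive injective `2^n`-tuples -/
def Tup (n : ℕ) (T : ℕ → ℕ → ℕ) : Prop :=
  (∀ k, ∀ s < 2 ^ n, ∀ s' < 2 ^ n, T k s = T k s' → s = s') ∧
  ∀ k k', k < k' → ∀ s < 2 ^ n, ∀ s' < 2 ^ n, T k s < T k' s'

theorem Tup.le {n : ℕ} {T : ℕ → ℕ → ℕ} (h : Tup n T) : ∀ k, ∀ s < 2 ^ n, k ≤ T k s := by
  intro k
  induction k with
  | zero => intro s _; exact Nat.zero_le _
  | succ k ih =>
    intro s hs
    exact lt_of_le_of_lt (ih s hs) (h.2 k (k + 1) (Nat.lt_succ_self k) s hs s hs)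

/-- subsequences -/
theorem Tup.comp {n : ℕ} {T : ℕ → ℕ → ℕ} (h : Tup n T) {φ : ℕ → ℕ} (hφ : StrictMono φ) :
    Tup n (fun k => T (φ k)) :=
  ⟨fun k => h.1 (φ k), fun _ _ hk => h.2 _ _ (hφ hk)⟩

/-- pair consecutive tuples -/
def pairT (n : ℕ) (T : ℕ → ℕ → ℕ) (k s : ℕ) : ℕ :=
  if s < 2 ^ n then T (2 * k) s else T (2 * k + 1) (s - 2 ^ n)

theorem pairT_low {n : ℕ} (T : ℕ → ℕ → ℕ) (k : ℕ) {s : ℕ} (hs : s < 2 ^ n) :
    pairT n T k s = T (2 * k) s := by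
  unfold pairT; rw [if_pos hs]

theorem pairT_high {n : ℕ} (T : ℕ → ℕ → ℕ) (k s : ℕ) :
    pairT n T k (2 ^ n + s) = T (2 * k + 1) s := by
  unfold pairT; rw [if_neg (by omega), Nat.add_sub_cancel_left]

theorem Tup.pair {n : ℕ} {T : ℕ → ℕ → ℕ} (h : Tup n T) : Tup (n + 1) (pairT n T) := by
  have hp : 2 ^ (n + 1) = 2 ^ n + 2 ^ n := by ring
  constructor
  · intro k s hs s' hs' he
    rcases lt_or_ge s (2 ^ n) with h1 | h1 <;> rcases lt_or_ge s' (2 ^ n) with h2 | h2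
    · rw [pairT_low _ _ h1, pairT_low _ _ h2] at he
      exact h.1 _ s h1 s' h2 he
    · obtain ⟨t', rfl⟩ := Nat.exists_eq_add_of_le h2
      rw [pairT_low _ _ h1, pairT_high] at he
      have := h.2 (2 * k) (2 * k + 1) (by omega) s h1 t' (by omega)
      omega
    · obtain ⟨t, rfl⟩ := Nat.exists_eq_add_of_le h1
      rw [pairT_low _ _ h2, pairT_high] at he
      have := h.2 (2 * k) (2 * k + 1) (by omega) s' h2 t (by omega)
      omega
    · obtain ⟨t, rfl⟩ := Nat.exists_eq_add_of_le h1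
      obtain ⟨t', rfl⟩ := Nat.exists_eq_add_of_le h2
      rw [pairT_high, pairT_high] at he
      rw [h.1 _ t (by omega) t' (by omega) he]
  · intro k k' hk s hs s' hs'
    have hcase : ∀ s < 2 ^ (n + 1), ∃ i t, (i = 0 ∨ i = 1) ∧ t < 2 ^ n ∧
        ∀ k, pairT n T k s = T (2 * k + i) t := by
      intro s hs
      rcases lt_or_ge s (2 ^ n) with h1 | h1
      · exact ⟨0, s, Or.inl rfl, h1, fun k => pairT_low _ _ h1⟩
      · obtain ⟨t, rfl⟩ := Nat.exists_eq_add_of_le h1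
        exact ⟨1, t, Or.inr rfl, by omega, fun k => pairT_high _ _ _⟩
    obtain ⟨i, t, hi, ht, h1⟩ := hcase s hs
    obtain ⟨i', t', hi', ht', h2⟩ := hcase s' hs'
    rw [h1, h2]
    exact h.2 _ _ (by omega) t ht t' ht'

section tree
variable {𝕜 : Type*} [RCLike 𝕜] {X : Type*} [NormedAddCommGroup X] [NormedSpace 𝕜 X]

theorem step_point (d : ℕ → X →L[𝕜] 𝕜) {D : ℝ} (hD : 0 < D)
    (hup : ∀ ε > 0, ∀ x : X, ‖x‖ ≤ 1 → ∀ᶠ k in atTop, ‖d k x‖ ≤ D + ε)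
    {n : ℕ} {T : ℕ → ℕ → ℕ} (hT : Tup n T) {F : ℕ → ℝ} (hF : ∀ s, |F s| = 1)
    (hlow : ∀ r < D, ∃ x : X, ‖x‖ ≤ 1 ∧ ∃ᶠ k in atTop, r < ‖av n (fun s => F s • d (T k s) x)‖) :
    ∃ x : X, ‖x‖ ≤ 1 ∧ ∃ᶠ k in atTop,
      av n (fun s => ‖d (T k s) x - ((D * F s : ℝ) : 𝕜)‖ ^ 2) ≤ D ^ 2 / 100 := by
  set δ : ℝ := D / 1000 with hδ
  have hδ0 : 0 < δ := by positivity
  obtain ⟨x₀, hx₀, hfr⟩ := hlow (D - δ / 2) (by linarith)
  have hev0 := hup δ hδ0 x₀ hx₀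
  have hev : ∀ᶠ k in atTop, ∀ s < 2 ^ n, ‖d (T k s) x₀‖ ≤ D + δ := by
    obtain ⟨N, hN⟩ := eventually_atTop.1 hev0
    filter_upwards [eventually_ge_atTop N] with k hk s hs
    exact hN _ (hk.trans (hT.le k s hs))
  set z : ℕ → 𝕜 := fun k => av n (fun s => F s • d (T k s) x₀) with hz
  set S : Set 𝕜 := {w | D - δ / 2 ≤ ‖w‖ ∧ ‖w‖ ≤ D + δ} with hS
  have hSb : Bornology.IsBounded S := by
    refine (Metric.isBounded_closedBall (x := (0 : 𝕜)) (r := D + δ)).subset fun w hw => ?_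
    rw [mem_closedBall_zero_iff]; exact hw.2
  have hSc : IsClosed S :=
    (isClosed_le continuous_const continuous_norm).inter
      (isClosed_le continuous_norm continuous_const)
  have hfr2 : ∃ᶠ k in atTop, z k ∈ S ∧ ∀ s < 2 ^ n, ‖d (T k s) x₀‖ ≤ D + δ := by
    refine (hfr.and_eventually hev).mono fun k hk => ⟨⟨hk.1.le, ?_⟩, hk.2⟩
    refine (norm_av_le _ _).trans ?_
    calc av n (fun s => ‖F s • d (T k s) x₀‖) ≤ av n (fun _ => D + δ) := by
          refine av_mono fun s hs => ?_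
          rw [norm_smul, Real.norm_eq_abs, hF, one_mul]
          exact hk.2 s hs
      _ = _ := av_const _ _
  obtain ⟨ψ, hψ, hψ2⟩ := extraction_of_frequently_atTop hfr2
  obtain ⟨a, ha, φ, hφ, hlim⟩ := tendsto_subseq_of_bounded hSb (x := fun k => z (ψ k))
    (fun k => (hψ2 k).1)
  rw [hSc.closure_eq] at ha
  have ha0 : a ≠ 0 := by
    rintro rfl
    have := ha.1
    rw [norm_zero] at this
    linarith
  have hna : ‖a‖ ≠ 0 := norm_ne_zero_iff.2 ha0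
  set u : 𝕜 := (starRingEnd 𝕜 a) / (‖a‖ : 𝕜) with hu
  have hun : ‖u‖ = 1 := by
    rw [hu, norm_div, RCLike.norm_conj, RCLike.norm_ofReal, abs_norm, div_self hna]
  have hua : u * a = (‖a‖ : 𝕜) := by
    have h1 : (‖a‖ : 𝕜) ≠ 0 := by exact_mod_cast hna
    rw [hu, div_mul_eq_mul_div, RCLike.conj_mul, pow_two, mul_div_assoc, div_self h1, mul_one]
  refine ⟨u • x₀, by rw [norm_smul, hun, one_mul]; exact hx₀, ?_⟩
  have hlim2 : Tendsto (fun k => RCLike.re (u * z (ψ (φ k)))) atTop (𝓝 ‖a‖) := by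
    have h1 : Tendsto (fun k => u * z (ψ (φ k))) atTop (𝓝 (u * a)) := hlim.const_mul u
    rw [hua] at h1
    have h2 := (RCLike.continuous_re.tendsto _).comp h1
    rw [RCLike.ofReal_re] at h2
    exact h2
  have hev2 : ∀ᶠ k in atTop, D - δ < RCLike.re (u * z (ψ (φ k))) :=
    hlim2.eventually_const_lt (by linarith [ha.1])
  have hmain : ∀ᶠ k in atTop, av n (fun s => ‖d (T (ψ (φ k)) s) (u • x₀) -
      ((D * F s : ℝ) : 𝕜)‖ ^ 2) ≤ D ^ 2 / 100 := by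
    filter_upwards [hev2] with k hk
    refine (av_close (n := n) (a := fun s => d (T (ψ (φ k)) s) (u • x₀)) hF hD hδ0.le ?_ ?_).trans ?_
    · intro s hs
      simp only [map_smul, norm_smul, hun, one_mul]
      exact (hψ2 (φ k)).2 s hs
    · have : av n (fun s => F s • d (T (ψ (φ k)) s) (u • x₀)) = u * z (ψ (φ k)) := by
        rw [hz, ← av_smul_left]
        refine av_congr fun s _ => ?_
        rw [map_smul, smul_eq_mul, mul_smul_comm]
      rw [this]; exact hk.le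
    · rw [hδ]; nlinarith [sq_nonneg D]
  exact ((hψ.comp hφ).tendsto_atTop).frequently hmain.frequently

/-- The tree. -/
theorem exists_tree (d : ℕ → X →L[𝕜] 𝕜) {D : ℝ} (hD : 0 < D)
    (hup : ∀ ε > 0, ∀ x : X, ‖x‖ ≤ 1 → ∀ᶠ k in atTop, ‖d k x‖ ≤ D + ε)
    (hlow : ∀ (n : ℕ) (T : ℕ → ℕ → ℕ) (_ : Tup n T) (F : ℕ → ℝ) (_ : ∀ s, |F s| = 1),
      ∀ r < D, ∃ x : X, ‖x‖ ≤ 1 ∧ ∃ᶠ k in atTop, r < ‖av n (fun s => F s • d (T k s) x)‖) :
    ∃ (x : ℕ → X) (τ : ℕ → ℕ → ℕ), (∀ n, ‖x n‖ ≤ 1) ∧ ∀ j, ∀ᶠ n in atTop,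
      av n (fun s => ‖d (τ n s) (x j) -
        ((D * sgc (Nat.unpair j).1 (Nat.unpair j).2 s : ℝ) : 𝕜)‖ ^ 2) ≤ D ^ 2 / 100 := by
  classical
  set F : ℕ → ℕ → ℝ := fun j => sgc (Nat.unpair j).1 (Nat.unpair j).2 with hFdef
  have hF : ∀ j s, |F j s| = 1 := fun j s => abs_sgc _ _ _
  have hFadd : ∀ j n, j ≤ n → ∀ s, F j (2 ^ n + s) = F j s := fun j n hjn s =>
    sgc_add ((Nat.unpair_left_le j).trans hjn) _ _
  -- the step
  have step : ∀ (n : ℕ) (T : {T : ℕ → ℕ → ℕ // Tup n T}),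
      ∃ (x : X) (T' : {T : ℕ → ℕ → ℕ // Tup (n + 1) T}), ‖x‖ ≤ 1 ∧
        (∀ k, ∃ k1 k2, (∀ s < 2 ^ n, T'.1 k s = T.1 k1 s) ∧
          (∀ s < 2 ^ n, T'.1 k (2 ^ n + s) = T.1 k2 s)) ∧
        ∀ k, av (n + 1) (fun s => ‖d (T'.1 k s) x - ((D * F n s : ℝ) : 𝕜)‖ ^ 2) ≤ D ^ 2 / 100 := by
    intro n T
    obtain ⟨x, hx, hfr⟩ := step_point d hD hup T.2 (hF n) (hlow n T.1 T.2 (F n) (hF n))
    obtain ⟨φ, hφ, hφ2⟩ := extraction_of_frequently_atTop hfr
    refine ⟨x, ⟨pairT n (fun k => T.1 (φ k)), (T.2.comp hφ).pair⟩, hx, ?_, ?_⟩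
    · intro k
      exact ⟨φ (2 * k), φ (2 * k + 1), fun s hs => pairT_low (fun k => T.1 (φ k)) k hs,
        fun s _ => pairT_high (fun k => T.1 (φ k)) k s⟩
    · intro k
      rw [av_succ]
      have h1 := hφ2 (2 * k)
      have h2 := hφ2 (2 * k + 1)
      have e1 : av n (fun s => ‖d (pairT n (fun k => T.1 (φ k)) k s) x -
          ((D * F n s : ℝ) : 𝕜)‖ ^ 2) =
          av n (fun s => ‖d (T.1 (φ (2 * k)) s) x - ((D * F n s : ℝ) : 𝕜)‖ ^ 2) :=
        av_congr fun s hs => by rw [pairT_low _ _ hs]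
      have e2 : av n (fun s => ‖d (pairT n (fun k => T.1 (φ k)) k (2 ^ n + s)) x -
          ((D * F n (2 ^ n + s) : ℝ) : 𝕜)‖ ^ 2) =
          av n (fun s => ‖d (T.1 (φ (2 * k + 1)) s) x - ((D * F n s : ℝ) : 𝕜)‖ ^ 2) :=
        av_congr fun s hs => by rw [pairT_high, hFadd n n le_rfl]
      simp only at e1 e2 ⊢
      rw [e1, e2, smul_eq_mul]
      linarith
  choose x T' hx hpair hav using step
  -- the sequence of stages
  let St : (n : ℕ) → {T : ℕ → ℕ → ℕ // Tup n T} := fun n => Nat.rec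
    ⟨fun k _ => k, by
      constructor
      · intro k s hs s' hs' _
        simp only [pow_zero, Nat.lt_one_iff] at hs hs'
        rw [hs, hs']
      · intro k k' hk s _ s' _
        exact hk⟩
    (fun n T => T' n T) n
  have hSt : ∀ n, St (n + 1) = T' n (St n) := fun n => rfl
  refine ⟨fun n => x n (St n), fun n => (St n).1 0, fun n => hx n _, fun j => ?_⟩
  have key : ∀ n, j + 1 ≤ n → ∀ k, av n (fun s => ‖d ((St n).1 k s) (x j (St j)) -
      ((D * F j s : ℝ) : 𝕜)‖ ^ 2) ≤ D ^ 2 / 100 := by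
    intro n hn
    induction n, hn using Nat.le_induction with
    | base => intro k; rw [hSt]; exact hav j (St j) k
    | succ n hn ih =>
      intro k
      obtain ⟨k1, k2, h1, h2⟩ := hpair n (St n) k
      rw [av_succ]
      have e1 : av n (fun s => ‖d ((St (n + 1)).1 k s) (x j (St j)) -
          ((D * F j s : ℝ) : 𝕜)‖ ^ 2) =
          av n (fun s => ‖d ((St n).1 k1 s) (x j (St j)) - ((D * F j s : ℝ) : 𝕜)‖ ^ 2) :=
        av_congr fun s hs => by rw [hSt, h1 s hs]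
      have e2 : av n (fun s => ‖d ((St (n + 1)).1 k (2 ^ n + s)) (x j (St j)) -
          ((D * F j (2 ^ n + s) : ℝ) : 𝕜)‖ ^ 2) =
          av n (fun s => ‖d ((St n).1 k2 s) (x j (St j)) - ((D * F j s : ℝ) : 𝕜)‖ ^ 2) :=
        av_congr fun s hs => by rw [hSt, h2 s hs, hFadd j n (by omega)]
      rw [e1, e2, smul_eq_mul]
      have i1 := ih k1
      have i2 := ih k2
      linarith
  filter_upwards [eventually_ge_atTop (j + 1)] with n hn
  exact key n hn 0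

end tree

end Crest.Agent.R114.HJ
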