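import Mathlib
import Crest.Agent.R114.SepQuot
import Crest.Agent.R114.VT5
import Crest.Agent.R114.HJ.Surj
import Crest.Agent.R114.HJ.Rad
import Crest.Agent.R114.HJ.Tree
import Crest.Agent.R114.HJ.C0
import Crest.Agent.R114.HJ.L2

/-!
# R114 / HJ / Main (helper935): `ℓ₁` in the dual gives a separable quotient
-/

set_option autoImplicit false

namespace Crest.Agent.R114.HJ

open Filter Topology
open Crest.Agent.R114.V.T5

universe u
variable {𝕜 : Type} [RCLike 𝕜] {X : Type u} [NormedAddCommGroup X] [NormedSpace 𝕜 X]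

theorem comb_of_inj (d : ℕ → X →L[𝕜] 𝕜) {a b N : ℕ} {t : ℕ → ℕ}
    (hinj : ∀ s < N, ∀ s' < N, t s = t s' → s = s') (hmem : ∀ s < N, t s ∈ Finset.Ico a b)
    {w : ℕ → 𝕜} (hw : ∑ s ∈ Finset.range N, ‖w s‖ = 1) :
    Comb d a b (∑ s ∈ Finset.range N, w s • d (t s)) := by
  classical
  set c : ℕ → 𝕜 := fun i => ∑ s ∈ Finset.range N, if t s = i then w s else 0 with hc
  have hc1 : ∀ s ∈ Finset.range N, c (t s) = w s := by
    intro s hs
    simp only [hc]
    rw [Finset.sum_eq_single s]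
    · rw [if_pos rfl]
    · intro s' hs' hne
      rw [if_neg]
      intro he
      exact hne (hinj s' (Finset.mem_range.1 hs') s (Finset.mem_range.1 hs) he)
    · intro h; exact absurd hs h
  have hc2 : ∀ i, i ∉ (Finset.range N).image t → c i = 0 := by
    intro i hi
    simp only [hc]
    refine Finset.sum_eq_zero fun s hs => ?_
    rw [if_neg]
    rintro rfl
    exact hi (Finset.mem_image_of_mem _ hs)
  have hsub : (Finset.range N).image t ⊆ Finset.Ico a b := by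
    intro i hi
    obtain ⟨s, hs, rfl⟩ := Finset.mem_image.1 hi
    exact hmem s (Finset.mem_range.1 hs)
  have hinj' : Set.InjOn t (Finset.range N : Set ℕ) := by
    intro s hs s' hs' he
    exact hinj s (Finset.mem_range.1 hs) s' (Finset.mem_range.1 hs') he
  refine ⟨c, ?_, ?_⟩
  · rw [← hw, ← Finset.sum_subset hsub (fun i _ hi => by rw [hc2 i hi, norm_zero]),
      Finset.sum_image hinj']
    exact Finset.sum_congr rfl fun s hs => by rw [hc1 s hs]
  · rw [← Finset.sum_subset hsub (fun i _ hi => by rw [hc2 i hi]; exact zero_smul 𝕜 (d i)),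
      Finset.sum_image hinj']
    exact Finset.sum_congr rfl fun s hs => by rw [hc1 s hs]

theorem Blk.lower {g d : ℕ → X →L[𝕜] 𝕜} {ρ : ℝ}
    (hl : ∀ (F : Finset ℕ) (c : ℕ → 𝕜), ρ * ∑ k ∈ F, ‖c k‖ ≤ ‖∑ k ∈ F, c k • g k‖)
    (hB : Blk g d) (F : Finset ℕ) (c : ℕ → 𝕜) :
    ρ * ∑ k ∈ F, ‖c k‖ ≤ ‖∑ k ∈ F, c k • d k‖ := by
  classical
  obtain ⟨m, hm, H⟩ := hB
  set S : ℝ := ∑ k ∈ F, ‖c k‖ with hS
  have hS0 : 0 ≤ S := Finset.sum_nonneg fun _ _ => norm_nonneg _
  rcases eq_or_lt_of_le hS0 with h0 | hpos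
  · rw [← h0, mul_zero]; exact norm_nonneg _
  obtain ⟨N, hN⟩ : ∃ N, ∀ k ∈ F, k < N := ⟨F.sup id + 1, fun k hk =>
    Nat.lt_succ_of_le (Finset.le_sup (f := id) hk)⟩
  have hsub : F ⊆ Finset.Ico 0 N := fun k hk => Finset.mem_Ico.2 ⟨Nat.zero_le _, hN k hk⟩
  have hcomb : Comb d 0 N ((S : 𝕜)⁻¹ • ∑ k ∈ F, c k • d k) := by
    refine ⟨fun k => if k ∈ F then (S : 𝕜)⁻¹ * c k else 0, ?_, ?_⟩
    · rw [← Finset.sum_subset hsub (fun i _ hi => by simp only [if_neg hi, norm_zero])]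
      calc ∑ k ∈ F, ‖if k ∈ F then (S : 𝕜)⁻¹ * c k else 0‖ = ∑ k ∈ F, S⁻¹ * ‖c k‖ := by
            refine Finset.sum_congr rfl fun k hk => ?_
            rw [if_pos hk, norm_mul, norm_inv, RCLike.norm_ofReal, abs_of_pos hpos]
        _ = 1 := by rw [← Finset.mul_sum, ← hS, inv_mul_cancel₀ hpos.ne']
    · rw [← Finset.sum_subset hsub (fun i _ hi => by
        simp only [if_neg hi]; exact zero_smul 𝕜 (d i)), Finset.smul_sum]
      refine Finset.sum_congr rfl fun k hk => ?_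
      simp only [if_pos hk]
      exact smul_smul _ _ _
  obtain ⟨e, he1, he2⟩ := Comb.trans hm.monotone H hcomb
  have h1 := hl (Finset.Ico (m 0) (m N)) e
  rw [he1, ← he2, norm_smul, norm_inv, RCLike.norm_ofReal, abs_of_pos hpos, mul_one] at h1
  calc ρ * S ≤ (S⁻¹ * ‖∑ k ∈ F, c k • d k‖) * S := by gcongr
    _ = _ := by field_simp

/-- The signed averages over tuples form a block sequence. -/
theorem blk_of_tup (d : ℕ → X →L[𝕜] 𝕜) {n : ℕ} {T : ℕ → ℕ → ℕ} (hT : Tup n T) {F : ℕ → ℝ}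
    (hF : ∀ s, |F s| = 1) :
    Blk d (fun k => ∑ s ∈ Finset.range (2 ^ n), ((((2 : ℝ) ^ n)⁻¹ * F s : ℝ) : 𝕜) • d (T k s)) := by
  have hne : (Finset.range (2 ^ n)).Nonempty := ⟨0, Finset.mem_range.2 (by positivity)⟩
  refine ⟨fun k => (Finset.range (2 ^ n)).inf' hne (T k), ?_, ?_⟩
  · intro k k' hk
    obtain ⟨s', hs', he⟩ := Finset.exists_mem_eq_inf' hne (T k')
    simp only
    rw [he]
    refine lt_of_le_of_lt (Finset.inf'_le _ hs') ?_
    exact hT.2 k k' hk s' (Finset.mem_range.1 hs') s' (Finset.mem_range.1 hs')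
  · intro k
    refine comb_of_inj d (hT.1 k) ?_ ?_
    · intro s hs
      rw [Finset.mem_Ico]
      refine ⟨Finset.inf'_le _ (Finset.mem_range.2 hs), ?_⟩
      rw [Finset.lt_inf'_iff]
      intro s' hs'
      exact hT.2 k (k + 1) (Nat.lt_succ_self k) s hs s' (Finset.mem_range.1 hs')
    · have : ∀ s ∈ Finset.range (2 ^ n), ‖((((2 : ℝ) ^ n)⁻¹ * F s : ℝ) : 𝕜)‖ = ((2 : ℝ) ^ n)⁻¹ := by
        intro s _
        rw [RCLike.norm_ofReal, abs_mul, hF, mul_one, abs_of_pos (by positivity)]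
      rw [Finset.sum_congr rfl this, Finset.sum_const, Finset.card_range, nsmul_eq_mul]
      push_cast
      exact mul_inv_cancel₀ (by positivity)

/-- **Theorem HJ** (after Hagler and Johnson). -/
theorem sepQuot_of_l1_dual [CompleteSpace X] (g : ℕ → X →L[𝕜] 𝕜) (hg : ∀ k, ‖g k‖ ≤ 1)
    {ρ : ℝ} (hρ : 0 < ρ)
    (hl : ∀ (F : Finset ℕ) (c : ℕ → 𝕜), ρ * ∑ k ∈ F, ‖c k‖ ≤ ‖∑ k ∈ F, c k • g k‖) :
    SepQuot 𝕜 X := by
  obtain ⟨d, hB, hst⟩ := exists_stable g 1 hg
  have hd : ∀ k, ‖d k‖ ≤ 1 := hB.norm_le hg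
  have hdl := Blk.lower hl hB
  by_cases hR : ∀ ε > 0, R d ε
  · -- weak* null
    refine sepQuot_of_null d hd hρ hdl fun x => ?_
    rw [Metric.tendsto_atTop]
    intro ε hε
    have hx0 : 0 < ‖x‖ + 1 := by positivity
    have h1 := hR (ε / 2 / (‖x‖ + 1)) (by positivity) (((‖x‖ + 1 : ℝ) : 𝕜)⁻¹ • x) (by
      rw [norm_smul, norm_inv, RCLike.norm_ofReal, abs_of_pos hx0, inv_mul_le_iff₀ hx0]
      linarith)
    obtain ⟨N, hN⟩ := eventually_atTop.1 h1
    refine ⟨N, fun k hk => ?_⟩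
    have h2 := hN k hk
    rw [map_smul, norm_smul, norm_inv, RCLike.norm_ofReal, abs_of_pos hx0,
      inv_mul_le_iff₀ hx0, mul_div_cancel₀ _ hx0.ne'] at h2
    rw [dist_zero_right]
    linarith
  · push Not at hR
    obtain ⟨ε₀, hε₀, hnR⟩ := hR
    set S : Set ℝ := {r | 0 ≤ r ∧ R d r} with hS
    have hSbdd : BddBelow S := ⟨0, fun r hr => hr.1⟩
    have hSne : S.Nonempty := ⟨1, zero_le_one, fun x hx => Eventually.of_forall fun k => by
      calc ‖d k x‖ ≤ ‖d k‖ * ‖x‖ := (d k).le_opNorm x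
        _ ≤ 1 * 1 := mul_le_mul (hd k) hx (norm_nonneg _) zero_le_one
        _ = 1 := mul_one 1⟩
    have hD : 0 < sInf S := by
      refine lt_of_lt_of_le hε₀ (le_csInf hSne fun r hr => ?_)
      by_contra hcon
      exact hnR (hr.2.mono (not_le.1 hcon).le)
    obtain ⟨x, τ, hx, hτ⟩ := exists_tree d hD (fun ε hε x hx => by
      obtain ⟨r, hr, hr2⟩ := exists_lt_of_csInf_lt hSne (lt_add_of_pos_right (sInf S) hε)
      exact (hr.2.mono hr2.le) x hx) (fun n T hT F hF r hr => by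
      by_contra hcon
      push Not at hcon
      have hRh : R (fun k => ∑ s ∈ Finset.range (2 ^ n),
          ((((2 : ℝ) ^ n)⁻¹ * F s : ℝ) : 𝕜) • d (T k s)) (max r 0) := by
        intro x hx
        have h1 := hcon x hx
        filter_upwards [h1] with k hk
        refine le_trans (le_of_eq ?_) (hk.trans (le_max_left _ _))
        congr 1
        unfold av
        rw [ContinuousLinearMap.sum_apply, Finset.smul_sum]
        refine Finset.sum_congr rfl fun s _ => ?_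
        rw [smul_smul, ContinuousLinearMap.smul_apply, smul_eq_mul, RCLike.real_smul_eq_coe_mul]
      have hmax : max r 0 < sInf S := max_lt hr hD
      have h2 := hst _ (blk_of_tup d hT hF) (max r 0) (le_max_right _ _) hRh
        ((sInf S - max r 0) / 2) (by linarith)
      have h3 : sInf S ≤ max r 0 + (sInf S - max r 0) / 2 :=
        csInf_le hSbdd ⟨by linarith [le_max_right r 0], h2⟩
      linarith)
    exact sepQuot_of_tree d hd hD x hx τ hτ

end Crest.Agent.R114.HJ
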